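import Vale.Agent.Lib.P042.Ruzsa

namespace Vale.Agent.Lib.P042

open Finset Polynomial

theorem isCoprime_of_noroot (m : ℕ) (g : Polynomial ℤ)
    (hroot : ∀ p : ℕ, p.Prime → p ∣ m → ∀ n : ℤ, ¬ ((p : ℤ) ∣ g.eval n)) (n : ℤ) :
    IsCoprime (m : ℤ) (g.eval n) := by
  rw [Int.isCoprime_iff_gcd_eq_one]
  by_contra h
  obtain ⟨p, hp, hdvd⟩ := Nat.exists_prime_and_dvd h
  have h1 : (p : ℤ) ∣ (m : ℤ) :=
    (Int.natCast_dvd_natCast.mpr hdvd).trans (Int.gcd_dvd_left _ _)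
  have h2 : (p : ℤ) ∣ g.eval n :=
    (Int.natCast_dvd_natCast.mpr hdvd).trans (Int.gcd_dvd_right _ _)
  exact hroot p hp (Int.natCast_dvd_natCast.mp h1) n h2

theorem pow_dvd_of_dvd (m μ v : ℕ) (c n : ℤ) (hco : IsCoprime (m : ℤ) c) (hμ : μ ≠ 0)
    (h : (m : ℤ) ^ (μ * v) ∣ n ^ μ * c) : (m : ℤ) ^ v ∣ n := by
  have h1 : IsCoprime ((m : ℤ) ^ (μ * v)) c := hco.pow_left
  have h2 := h1.dvd_of_dvd_mul_right h
  rw [mul_comm, pow_mul] at h2
  exact (Int.pow_dvd_pow_iff hμ).mp h2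

theorem no_value_of_dvd (m μ : ℕ) (g : Polynomial ℤ) (hμ : μ ≠ 0) (hm : 2 ≤ m)
    (hco : ∀ n, IsCoprime (m : ℤ) (g.eval n)) (v : ℕ) (hv : 1 ≤ v) (x : ℤ)
    (hgood : ∀ u : ℤ, ¬ ((m : ℤ) ∣ x - g.eval 0 * u ^ μ)) (n : ℤ) :
    (m : ℤ) ^ (μ * v) * x ≠ n ^ μ * g.eval n := by
  intro h
  have hd : (m : ℤ) ^ v ∣ n := pow_dvd_of_dvd m μ v _ n (hco n) hμ (Dvd.intro _ h)
  obtain ⟨n', rfl⟩ := hd
  have hm0 : (m : ℤ) ≠ 0 := by
    have : (0 : ℤ) < m := by exact_mod_cast (by omega : 0 < m)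
    omega
  have hpow : ((m : ℤ) ^ v * n') ^ μ = (m : ℤ) ^ (μ * v) * n' ^ μ := by
    rw [mul_pow, ← pow_mul, mul_comm v μ]
  rw [hpow, mul_assoc] at h
  have hx : x = n' ^ μ * g.eval ((m : ℤ) ^ v * n') :=
    mul_left_cancel₀ (pow_ne_zero _ hm0) h
  apply hgood n'
  have h1 : (m : ℤ) ^ v * n' - 0 ∣ g.eval ((m : ℤ) ^ v * n') - g.eval 0 :=
    Polynomial.sub_dvd_eval_sub _ _ _
  have h2 : (m : ℤ) ∣ (m : ℤ) ^ v * n' - 0 := by
    rw [sub_zero]
    exact Dvd.dvd.mul_right (dvd_pow_self _ (by omega)) _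
  have h3 := h2.trans h1
  rw [hx]
  have : n' ^ μ * g.eval ((m : ℤ) ^ v * n') - g.eval 0 * n' ^ μ
      = n' ^ μ * (g.eval ((m : ℤ) ^ v * n') - g.eval 0) := by ring
  rw [this]
  exact Dvd.dvd.mul_left h3 _

theorem no_value_of_not_dvd (m μ : ℕ) (g : Polynomial ℤ) (hμ0 : μ ≠ 0) (hsq : Squarefree m)
    (hroot : ∀ p : ℕ, p.Prime → p ∣ m → ∀ n : ℤ, ¬ ((p : ℤ) ∣ g.eval n))
    (j : ℕ) (hj : ¬ μ ∣ j) (x : ℤ) (p : ℕ) (hp : p.Prime) (hpm : p ∣ m)
    (hpx : ¬ (p : ℤ) ∣ x) (n : ℤ) :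
    (m : ℤ) ^ j * x ≠ n ^ μ * g.eval n := by
  intro h
  have hm0 : m ≠ 0 := hsq.ne_zero
  have hx0 : x ≠ 0 := by
    rintro rfl
    exact hpx (dvd_zero _)
  have hnat : m ^ j * x.natAbs = n.natAbs ^ μ * (g.eval n).natAbs := by
    have := congrArg Int.natAbs h
    simpa [Int.natAbs_mul, Int.natAbs_pow] using this
  have hg0 : (g.eval n).natAbs ≠ 0 := by
    intro h0
    have : g.eval n = 0 := Int.natAbs_eq_zero.mp h0
    exact hroot p hp hpm n (by rw [this]; exact dvd_zero _)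
  have hn0 : n.natAbs ≠ 0 := by
    intro h0
    rw [h0] at hnat
    rw [zero_pow hμ0, zero_mul] at hnat
    have : m ^ j * x.natAbs ≠ 0 :=
      mul_ne_zero (pow_ne_zero _ hm0) (Int.natAbs_ne_zero.mpr hx0)
    exact this hnat
  have hfx : x.natAbs.factorization p = 0 := by
    apply Nat.factorization_eq_zero_of_not_dvd
    intro hd
    exact hpx (Int.natCast_dvd.mpr hd)
  have hfg : (g.eval n).natAbs.factorization p = 0 := by
    apply Nat.factorization_eq_zero_of_not_dvd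
    intro hd
    exact hroot p hp hpm n (Int.natCast_dvd.mpr hd)
  have hfm : m.factorization p = 1 := Nat.factorization_eq_one_of_squarefree hsq hp hpm
  have hfac : (m ^ j * x.natAbs).factorization p =
      (n.natAbs ^ μ * (g.eval n).natAbs).factorization p := by rw [hnat]
  rw [Nat.factorization_mul (pow_ne_zero _ hm0) (Int.natAbs_ne_zero.mpr hx0),
    Nat.factorization_mul (pow_ne_zero _ hn0) hg0, Nat.factorization_pow,
    Nat.factorization_pow] at hfac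
  simp only [Finsupp.add_apply, Finsupp.smul_apply, smul_eq_mul, hfx, hfg, hfm] at hfac
  apply hj
  exact ⟨n.natAbs.factorization p, by omega⟩

theorem exists_prime_not_dvd (m : ℕ) (hsq : Squarefree m) (x : ℤ) (hx : ¬ (m : ℤ) ∣ x) :
    ∃ p : ℕ, p.Prime ∧ p ∣ m ∧ ¬ (p : ℤ) ∣ x := by
  by_contra hcon
  push Not at hcon
  apply hx
  have h1 : ∏ p ∈ m.primeFactors, p ∣ x.natAbs := by
    apply Finset.prod_primes_dvd
    · intro a ha
      exact (Nat.prime_of_mem_primeFactors ha).prime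
    · intro a ha
      have hap := Nat.prime_of_mem_primeFactors ha
      have := hcon a hap (Nat.dvd_of_mem_primeFactors ha)
      exact Int.natCast_dvd.mp this
  rw [Nat.prod_primeFactors_of_squarefree hsq] at h1
  exact Int.natCast_dvd.mpr h1

/-- Digit-level statement: a difference `m^j (r - s + m y)` with `j ≥ μ` is never a value. -/
theorem no_value (m μ : ℕ) (g : Polynomial ℤ) (hμ : 1 ≤ μ) (hm : 2 ≤ m) (hsq : Squarefree m)
    (hroot : ∀ p : ℕ, p.Prime → p ∣ m → ∀ n : ℤ, ¬ ((p : ℤ) ∣ g.eval n))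
    (j : ℕ) (hj : μ ≤ j) (r s : ℕ) (hr : r < m) (hs : s < m) (hrs : r ≠ s)
    (hgood : μ ∣ j → ∀ u : ℤ, ¬ ((m : ℤ) ∣ (r : ℤ) - s - g.eval 0 * u ^ μ)) (y n : ℤ) :
    (m : ℤ) ^ j * ((r : ℤ) - s + m * y) ≠ n ^ μ * g.eval n := by
  by_cases hd : μ ∣ j
  · obtain ⟨v, rfl⟩ := hd
    have hv : 1 ≤ v := by
      by_contra hv
      have : v = 0 := by omega
      subst this
      simp at hj
      omega
    apply no_value_of_dvd m μ g (by omega) hm (isCoprime_of_noroot m g hroot) v hv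
    intro u hu
    apply hgood ⟨v, rfl⟩ u
    have : (r : ℤ) - s - g.eval 0 * u ^ μ = ((r : ℤ) - s + m * y - g.eval 0 * u ^ μ) - m * y := by
      ring
    rw [this]
    exact dvd_sub hu (Dvd.intro _ rfl)
  · have hnd : ¬ (m : ℤ) ∣ (r : ℤ) - s + m * y := by
      intro h
      have h1 : (m : ℤ) ∣ (r : ℤ) - s := by
        have : (r : ℤ) - s = ((r : ℤ) - s + m * y) - m * y := by ring
        rw [this]
        exact dvd_sub h (Dvd.intro _ rfl)
      have hlt : |(r : ℤ) - s| < m := by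
        rw [abs_lt]
        constructor <;> omega
      have h0 := Int.eq_zero_of_abs_lt_dvd h1 hlt
      apply hrs
      omega
    obtain ⟨p, hp, hpm, hpx⟩ := exists_prime_not_dvd m hsq _ hnd
    exact no_value_of_not_dvd m μ g (by omega) hsq hroot j hd _ p hp hpm hpx n

/-- Growth of integer polynomials on the positive integers. -/
theorem growth_pos (P : Polynomial ℤ) (hP : P ≠ 0) :
    ∃ x0 : ℕ, ∀ x : ℕ, x0 ≤ x → x ^ P.natDegree ≤ 2 * (P.eval (x : ℤ)).natAbs := by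
  set Q : Polynomial ℝ := P.map (Int.castRingHom ℝ) with hQ
  have hinj : Function.Injective (Int.castRingHom ℝ) := Int.cast_injective
  have hdeg : Q.natDegree = P.natDegree := Polynomial.natDegree_map_eq_of_injective hinj P
  have hlc : Q.leadingCoeff = (P.leadingCoeff : ℝ) := by
    rw [hQ, Polynomial.leadingCoeff_map_of_injective hinj]
    rfl
  have hlc1 : 1 ≤ |(P.leadingCoeff : ℝ)| := by
    have : P.leadingCoeff ≠ 0 := Polynomial.leadingCoeff_ne_zero.mpr hP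
    have h1 : 1 ≤ |P.leadingCoeff| := Int.one_le_abs this
    exact_mod_cast h1
  have hequiv := Polynomial.isEquivalent_atTop_lead Q
  have hlo := hequiv.isLittleO
  have hev := hlo.def (c := 1 / 2) (by norm_num)
  obtain ⟨a, ha⟩ := Filter.eventually_atTop.mp hev
  obtain ⟨x0, hx0⟩ := exists_nat_ge a
  refine ⟨x0, ?_⟩
  intro x hx
  have hxa : a ≤ (x : ℝ) := hx0.trans (by exact_mod_cast hx)
  have h1 := ha x hxa
  simp only [Pi.sub_apply, hlc, hdeg, Real.norm_eq_abs] at h1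
  have heval : Polynomial.eval (x : ℝ) Q = ((P.eval (x : ℤ) : ℤ) : ℝ) := by
    have := Polynomial.eval_intCast_map (Int.castRingHom ℝ) P (x : ℤ)
    simp [hQ] at this ⊢
  rw [heval] at h1
  have hxpow : (0 : ℝ) ≤ (x : ℝ) ^ P.natDegree := by positivity
  have habs : |(P.leadingCoeff : ℝ) * (x : ℝ) ^ P.natDegree| =
      |(P.leadingCoeff : ℝ)| * (x : ℝ) ^ P.natDegree := by
    rw [abs_mul, abs_of_nonneg hxpow]
  rw [habs] at h1
  set L := |(P.leadingCoeff : ℝ)| * (x : ℝ) ^ P.natDegree with hL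
  have hL1 : (x : ℝ) ^ P.natDegree ≤ L := by
    rw [hL]
    nlinarith
  have h2 : L - |((P.eval (x : ℤ) : ℤ) : ℝ)| ≤ 1 / 2 * L := by
    have h3 : |(P.leadingCoeff : ℝ) * (x : ℝ) ^ P.natDegree| - |((P.eval (x : ℤ) : ℤ) : ℝ)|
        ≤ |((P.eval (x : ℤ) : ℤ) : ℝ) - (P.leadingCoeff : ℝ) * (x : ℝ) ^ P.natDegree| := by
      rw [abs_sub_comm ((P.eval (x : ℤ) : ℤ) : ℝ)]
      exact abs_sub_abs_le_abs_sub _ _
    rw [habs] at h3
    linarith
  have h4 : (x : ℝ) ^ P.natDegree ≤ 2 * |((P.eval (x : ℤ) : ℤ) : ℝ)| := by linarith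
  have h5 : |((P.eval (x : ℤ) : ℤ) : ℝ)| = (((P.eval (x : ℤ)).natAbs : ℕ) : ℝ) := by
    rw [Nat.cast_natAbs]
    push_cast
    rfl
  rw [h5] at h4
  exact_mod_cast h4

theorem growth (P : Polynomial ℤ) (hP : P ≠ 0) :
    ∃ C : ℕ, 1 ≤ C ∧ ∀ u : ℤ, u.natAbs ^ P.natDegree ≤ C * ((P.eval u).natAbs + 1) := by
  obtain ⟨x1, h1⟩ := growth_pos P hP
  set P' : Polynomial ℤ := P.comp (-X) with hP'
  have hcomp : P'.comp (-X) = P := by
    rw [hP', Polynomial.comp_assoc]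
    simp
  have hP'0 : P' ≠ 0 := by
    intro h0
    rw [h0] at hcomp
    simp at hcomp
    exact hP hcomp.symm
  have hdeg : P'.natDegree = P.natDegree := by
    rw [hP', Polynomial.natDegree_comp]
    simp
  obtain ⟨x2, h2⟩ := growth_pos P' hP'0
  rw [hdeg] at h2
  refine ⟨2 + (max x1 x2) ^ P.natDegree, by omega, ?_⟩
  intro u
  set d := P.natDegree
  set x0 := max x1 x2
  by_cases hu : u.natAbs < x0
  · have h3 : u.natAbs ^ d ≤ x0 ^ d := Nat.pow_le_pow_left hu.le _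
    have h0 := Nat.zero_le (x0 ^ d * (P.eval u).natAbs)
    have h00 := Nat.zero_le ((P.eval u).natAbs)
    calc u.natAbs ^ d ≤ x0 ^ d := h3
      _ ≤ (2 + x0 ^ d) * ((P.eval u).natAbs + 1) := by nlinarith
  · push Not at hu
    rcases Int.natAbs_eq u with hpos | hneg
    · have h4 := h1 u.natAbs ((le_max_left _ _).trans hu)
      rw [← hpos] at h4
      have h0 := Nat.zero_le (x0 ^ d * (P.eval u).natAbs)
      have h00 := Nat.zero_le (x0 ^ d)
      calc u.natAbs ^ d ≤ 2 * (P.eval u).natAbs := h4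
        _ ≤ (2 + x0 ^ d) * ((P.eval u).natAbs + 1) := by nlinarith
    · have h4 := h2 u.natAbs ((le_max_right _ _).trans hu)
      have h5 : P'.eval ((u.natAbs : ℕ) : ℤ) = P.eval u := by
        rw [hP']
        simp only [Polynomial.eval_comp, Polynomial.eval_neg, Polynomial.eval_X]
        congr 1
        omega
      rw [h5] at h4
      have h0 := Nat.zero_le (x0 ^ d * (P.eval u).natAbs)
      have h00 := Nat.zero_le (x0 ^ d)
      calc u.natAbs ^ d ≤ 2 * (P.eval u).natAbs := h4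
        _ ≤ (2 + x0 ^ d) * ((P.eval u).natAbs + 1) := by nlinarith


/-- Digit sets: every `μ`-th digit in `R`, the others free. -/
def blockS (μ : ℕ) (R : Finset ℕ) (m : ℕ) (i : ℕ) : Finset ℕ :=
  if μ ∣ i then R else Finset.range m

theorem blockS_lt (μ : ℕ) (R : Finset ℕ) (m : ℕ) (hR : ∀ r ∈ R, r < m) :
    ∀ i, ∀ r ∈ blockS μ R m i, r < m := by
  intro i r hr
  unfold blockS at hr
  split_ifs at hr
  · exact hR r hr
  · exact Finset.mem_range.mp hr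

theorem blockD_card (μ : ℕ) (hμ : 1 ≤ μ) (R : Finset ℕ) (m : ℕ) (hm : 0 < m)
    (hR : ∀ r ∈ R, r < m) (L : ℕ) :
    (digitSet m (blockS μ R m) 0 (μ * L)).card = (R.card * m ^ (μ - 1)) ^ L := by
  rw [digitSet_card m hm _ (blockS_lt μ R m hR)]
  rw [← prod_block μ hμ]
  apply Finset.prod_congr rfl
  intro j _
  rw [zero_add]
  unfold blockS
  split_ifs <;> simp

/-- The combined construction: low digits from the block set, high part from `B`. -/
theorem construct (m μ : ℕ) (g : Polynomial ℤ) (hμ : 1 ≤ μ) (hm : 2 ≤ m) (hsq : Squarefree m)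
    (hroot : ∀ p : ℕ, p.Prime → p ∣ m → ∀ n : ℤ, ¬ ((p : ℤ) ∣ g.eval n))
    (R : Finset ℕ) (hRm : ∀ r ∈ R, r < m)
    (hR : ∀ r ∈ R, ∀ s ∈ R, r ≠ s → ∀ u : ℤ, ¬ ((m : ℤ) ∣ (r : ℤ) - s - g.eval 0 * u ^ μ))
    (L T : ℕ) (B : Finset ℕ) (hBT : B ⊆ Finset.range T)
    (hB : ∀ x ∈ B, ∀ y ∈ B, ∀ u : ℤ,
      ((m : ℤ) ^ (μ * (L + 1))) * ((x : ℤ) - y) = u ^ μ * g.eval u → x = y) :
    ∃ A : Finset ℕ, A.card = (R.card * m ^ (μ - 1)) ^ L * B.card ∧
      (∀ a ∈ A, 1 ≤ a ∧ a ≤ m ^ (μ * (L + 1)) * T) ∧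
      (∀ a ∈ A, ∀ b ∈ A, ∀ u : ℤ, (a : ℤ) - b = u ^ μ * g.eval u → a = b) := by
  have hm0 : 0 < m := by omega
  set D := digitSet m (blockS μ R m) 0 (μ * L) with hD
  have hDlt : ∀ d ∈ D, d < m ^ (μ * L) := digitSet_lt m _ (blockS_lt μ R m hRm) _ 0
  have hMeq : m ^ (μ * (L + 1)) = m ^ μ * m ^ (μ * L) := by
    rw [Nat.mul_succ, add_comm, pow_add]
  let f : ℕ × ℕ → ℕ := fun p => 1 + m ^ μ * p.1 + m ^ (μ * (L + 1)) * p.2
  have hpμ : 0 < m ^ μ := by positivity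
  have hQ : 0 < m ^ (μ * L) := by positivity
  refine ⟨(D ×ˢ B).image f, ?_, ?_, ?_⟩
  · rw [Finset.card_image_of_injOn, Finset.card_product, hD,
      blockD_card μ hμ R m hm0 hRm]
    rintro ⟨d, x⟩ h1 ⟨d', x'⟩ h2 heq
    simp only [Finset.coe_product, Set.mem_prod, Finset.mem_coe] at h1 h2
    simp only [f] at heq
    rw [hMeq] at heq
    have h3 : m ^ μ * (d + m ^ (μ * L) * x) = m ^ μ * (d' + m ^ (μ * L) * x') := by
      have e1 : m ^ μ * (d + m ^ (μ * L) * x) = m ^ μ * d + m ^ μ * m ^ (μ * L) * x := by ring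
      have e2 : m ^ μ * (d' + m ^ (μ * L) * x') = m ^ μ * d' + m ^ μ * m ^ (μ * L) * x' := by ring
      rw [e1, e2]
      omega
    have h4 := Nat.eq_of_mul_eq_mul_left hpμ h3
    have hd1 := hDlt d h1.1
    have hd2 := hDlt d' h2.1
    have hdd : d = d' := by
      have h5 := congrArg (· % m ^ (μ * L)) h4
      simp only [Nat.add_mul_mod_self_left] at h5
      rwa [Nat.mod_eq_of_lt hd1, Nat.mod_eq_of_lt hd2] at h5
    subst hdd
    have h6 : m ^ (μ * L) * x = m ^ (μ * L) * x' := by omega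
    have h7 := Nat.eq_of_mul_eq_mul_left hQ h6
    subst h7
    rfl
  · intro a ha
    simp only [Finset.mem_image, Finset.mem_product] at ha
    obtain ⟨⟨d, x⟩, ⟨hd, hx⟩, rfl⟩ := ha
    simp only [f]
    refine ⟨by omega, ?_⟩
    have hxT : x + 1 ≤ T := Finset.mem_range.mp (hBT hx)
    have hd1 := hDlt d hd
    have h1 : 1 + m ^ μ * d ≤ m ^ (μ * (L + 1)) := by
      rw [hMeq]
      calc 1 + m ^ μ * d ≤ m ^ μ + m ^ μ * d := by omega
        _ = m ^ μ * (d + 1) := by ring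
        _ ≤ m ^ μ * m ^ (μ * L) := Nat.mul_le_mul_left _ hd1
    calc 1 + m ^ μ * d + m ^ (μ * (L + 1)) * x
        ≤ m ^ (μ * (L + 1)) + m ^ (μ * (L + 1)) * x := by omega
      _ = m ^ (μ * (L + 1)) * (x + 1) := by ring
      _ ≤ m ^ (μ * (L + 1)) * T := Nat.mul_le_mul_left _ hxT
  · intro a ha b hb u hu
    simp only [Finset.mem_image, Finset.mem_product] at ha hb
    obtain ⟨⟨d, x⟩, ⟨hd, hx⟩, rfl⟩ := ha
    obtain ⟨⟨d', x'⟩, ⟨hd', hx'⟩, rfl⟩ := hb
    simp only [f] at hu ⊢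
    have hdiff : ((1 + m ^ μ * d + m ^ (μ * (L + 1)) * x : ℕ) : ℤ)
        - ((1 + m ^ μ * d' + m ^ (μ * (L + 1)) * x' : ℕ) : ℤ)
        = (m : ℤ) ^ μ * ((d : ℤ) - d') + (m : ℤ) ^ (μ * (L + 1)) * ((x : ℤ) - x') := by
      push_cast
      ring
    rw [hdiff] at hu
    by_cases hdd : d = d'
    · subst hdd
      have h1 : (m : ℤ) ^ (μ * (L + 1)) * ((x : ℤ) - x') = u ^ μ * g.eval u := by
        rw [← hu]
        ring
      have := hB x hx x' hx' u h1
      rw [this]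
    · exfalso
      obtain ⟨j, hj, r, hr, s, hs, hrs, y, hy⟩ :=
        digit_diff m (blockS μ R m) (μ * L) 0 d hd d' hd' hdd
      rw [zero_add] at hr hs
      have hrm := blockS_lt μ R m hRm j r hr
      have hsm := blockS_lt μ R m hRm j s hs
      have hgood : μ ∣ (μ + j) → ∀ w : ℤ, ¬ ((m : ℤ) ∣ (r : ℤ) - s - g.eval 0 * w ^ μ) := by
        intro hdvd
        have h1 : μ ∣ j := (Nat.dvd_add_right (dvd_refl μ)).mp hdvd
        unfold blockS at hr hs
        rw [if_pos h1] at hr hs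
        exact hR r hr s hs hrs
      refine no_value m μ g hμ hm hsq hroot (μ + j) (by omega) r s hrm hsm hrs hgood
        (y + (m : ℤ) ^ (μ * L - j - 1) * ((x : ℤ) - x')) u ?_
      rw [← hu, hy]
      have hexp : μ * (L + 1) = μ + j + 1 + (μ * L - j - 1) := by
        rw [Nat.mul_succ]
        omega
      rw [hexp]
      ring

/-- Choice of the high part by the greedy lemma. -/
theorem exists_high (m μ : ℕ) (g : Polynomial ℤ) (hμ : 1 ≤ μ) (hm : 2 ≤ m)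
    (hroot : ∀ p : ℕ, p.Prime → p ∣ m → ∀ n : ℤ, ¬ ((p : ℤ) ∣ g.eval n))
    (C : ℕ) (hC1 : 1 ≤ C) (k : ℕ) (hk : 1 ≤ k)
    (hgrow : ∀ u : ℤ, u.natAbs ^ k ≤ C * ((u ^ μ * g.eval u).natAbs + 1))
    (L T N : ℕ) (hTN : m ^ (μ * (L + 1)) * T ≤ N) (hNlt : N < m ^ (k * (L + 2))) :
    ∃ B ⊆ Finset.range T, T ≤ B.card * (2 * (C * m) + 2) ∧
      ∀ x ∈ B, ∀ y ∈ B, ∀ u : ℤ,
        ((m : ℤ) ^ (μ * (L + 1))) * ((x : ℤ) - y) = u ^ μ * g.eval u → x = y := by
  have hm0 : 0 < m := by omega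
  set K : ℕ := C * m with hK
  let F : ℤ → ℕ := fun v => (v ^ μ * g.eval ((m : ℤ) ^ (L + 1) * v)).natAbs
  set Dt : Finset ℕ := (Finset.Icc (-(K : ℤ)) (K : ℤ)).image F with hDt
  have hDtcard : Dt.card ≤ 2 * K + 1 := by
    refine Finset.card_image_le.trans ?_
    simp only [Int.card_Icc]
    omega
  obtain ⟨B, hB, h1, h2⟩ := greedy Dt T
  refine ⟨B, hB, ?_, ?_⟩
  · refine h2.trans (Nat.mul_le_mul_left _ ?_)
    omega
  -- the key property
  have key : ∀ x ∈ B, ∀ y ∈ B, ∀ u : ℤ,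
      ((m : ℤ) ^ (μ * (L + 1))) * ((x : ℤ) - y) = u ^ μ * g.eval u → x < y → False := by
    intro x hx y hy u hu hxy
    have hco := isCoprime_of_noroot m g hroot u
    have hdvd : (m : ℤ) ^ (L + 1) ∣ u :=
      pow_dvd_of_dvd m μ (L + 1) _ u hco (by omega) (Dvd.intro _ hu)
    obtain ⟨v, rfl⟩ := hdvd
    have hm0' : (m : ℤ) ≠ 0 := by
      have : (0 : ℤ) < m := by exact_mod_cast hm0
      omega
    have hpow : ((m : ℤ) ^ (L + 1) * v) ^ μ = (m : ℤ) ^ (μ * (L + 1)) * v ^ μ := by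
      rw [mul_pow, ← pow_mul, mul_comm (L + 1) μ]
    have hu2 := hu
    rw [hpow, mul_assoc] at hu2
    have hxv : (x : ℤ) - y = v ^ μ * g.eval ((m : ℤ) ^ (L + 1) * v) :=
      mul_left_cancel₀ (pow_ne_zero _ hm0') hu2
    -- size of the value
    have hyT : y + 1 ≤ T := Finset.mem_range.mp (hB hy)
    have hval : (((m : ℤ) ^ (L + 1) * v) ^ μ * g.eval ((m : ℤ) ^ (L + 1) * v)).natAbs
        = m ^ (μ * (L + 1)) * (y - x) := by
      rw [← hu]
      rw [Int.natAbs_mul, Int.natAbs_pow, Int.natAbs_natCast]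
      congr 1
      omega
    have hgr := hgrow ((m : ℤ) ^ (L + 1) * v)
    rw [hval] at hgr
    have hle : m ^ (μ * (L + 1)) * (y - x) + 1 ≤ N := by
      have hMpos : 0 < m ^ (μ * (L + 1)) := by positivity
      have h3 : y - x + 1 ≤ T := by omega
      calc m ^ (μ * (L + 1)) * (y - x) + 1 ≤ m ^ (μ * (L + 1)) * (y - x) + m ^ (μ * (L + 1)) := by
            omega
        _ = m ^ (μ * (L + 1)) * (y - x + 1) := by ring
        _ ≤ m ^ (μ * (L + 1)) * T := Nat.mul_le_mul_left _ h3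
        _ ≤ N := hTN
    have hu3 : (((m : ℤ) ^ (L + 1) * v).natAbs) ^ k ≤ C * N :=
      hgr.trans (Nat.mul_le_mul_left _ hle)
    have hnat : ((m : ℤ) ^ (L + 1) * v).natAbs = m ^ (L + 1) * v.natAbs := by
      rw [Int.natAbs_mul, Int.natAbs_pow, Int.natAbs_natCast]
    rw [hnat, mul_pow] at hu3
    have hkexp : m ^ (k * (L + 2)) = (m ^ (L + 1)) ^ k * m ^ k := by
      rw [← pow_mul, ← pow_add]
      congr 1
      ring
    have hv : v.natAbs ≤ K := by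
      by_contra hcon
      push Not at hcon
      have h4 : K ^ k < v.natAbs ^ k := Nat.pow_lt_pow_left hcon (by omega)
      have h5 : C * m ^ k ≤ K ^ k := by
        rw [hK, mul_pow]
        exact Nat.mul_le_mul_right _ (by
          calc C = C ^ 1 := (pow_one C).symm
            _ ≤ C ^ k := Nat.pow_le_pow_right hC1 hk)
      have hA : 0 < (m ^ (L + 1)) ^ k := by positivity
      have h6 : (m ^ (L + 1)) ^ k * (C * m ^ k) < (m ^ (L + 1)) ^ k * v.natAbs ^ k :=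
        Nat.mul_lt_mul_of_pos_left (lt_of_le_of_lt h5 h4) hA
      have h7 : C * N < C * m ^ (k * (L + 2)) := Nat.mul_lt_mul_of_pos_left hNlt (by omega)
      rw [hkexp] at h7
      have h8 : C * ((m ^ (L + 1)) ^ k * m ^ k) = (m ^ (L + 1)) ^ k * (C * m ^ k) := by ring
      rw [h8] at h7
      omega
    have hmem : y - x ∈ Dt := by
      rw [hDt, Finset.mem_image]
      refine ⟨v, ?_, ?_⟩
      · rw [Finset.mem_Icc]
        constructor <;> omega
      · simp only [F]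
        rw [← hxv]
        omega
    exact h1 x hx y hy hxy hmem
  -- symmetric version
  have key2 : ∀ x ∈ B, ∀ y ∈ B, ∀ u : ℤ,
      ((m : ℤ) ^ (μ * (L + 1))) * ((x : ℤ) - y) = u ^ μ * g.eval u → y < x → False := by
    intro x hx y hy u hu hxy
    have hco := isCoprime_of_noroot m g hroot u
    have hdvd : (m : ℤ) ^ (L + 1) ∣ u :=
      pow_dvd_of_dvd m μ (L + 1) _ u hco (by omega) (Dvd.intro _ hu)
    obtain ⟨v, rfl⟩ := hdvd
    have hm0' : (m : ℤ) ≠ 0 := by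
      have : (0 : ℤ) < m := by exact_mod_cast hm0
      omega
    have hpow : ((m : ℤ) ^ (L + 1) * v) ^ μ = (m : ℤ) ^ (μ * (L + 1)) * v ^ μ := by
      rw [mul_pow, ← pow_mul, mul_comm (L + 1) μ]
    have hu2 := hu
    rw [hpow, mul_assoc] at hu2
    have hxv : (x : ℤ) - y = v ^ μ * g.eval ((m : ℤ) ^ (L + 1) * v) :=
      mul_left_cancel₀ (pow_ne_zero _ hm0') hu2
    have hxT : x + 1 ≤ T := Finset.mem_range.mp (hB hx)
    have hval : (((m : ℤ) ^ (L + 1) * v) ^ μ * g.eval ((m : ℤ) ^ (L + 1) * v)).natAbs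
        = m ^ (μ * (L + 1)) * (x - y) := by
      rw [← hu]
      rw [Int.natAbs_mul, Int.natAbs_pow, Int.natAbs_natCast]
      congr 1
      omega
    have hgr := hgrow ((m : ℤ) ^ (L + 1) * v)
    rw [hval] at hgr
    have hle : m ^ (μ * (L + 1)) * (x - y) + 1 ≤ N := by
      have hMpos : 0 < m ^ (μ * (L + 1)) := by positivity
      have h3 : x - y + 1 ≤ T := by omega
      calc m ^ (μ * (L + 1)) * (x - y) + 1 ≤ m ^ (μ * (L + 1)) * (x - y) + m ^ (μ * (L + 1)) := by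
            omega
        _ = m ^ (μ * (L + 1)) * (x - y + 1) := by ring
        _ ≤ m ^ (μ * (L + 1)) * T := Nat.mul_le_mul_left _ h3
        _ ≤ N := hTN
    have hu3 : (((m : ℤ) ^ (L + 1) * v).natAbs) ^ k ≤ C * N :=
      hgr.trans (Nat.mul_le_mul_left _ hle)
    have hnat : ((m : ℤ) ^ (L + 1) * v).natAbs = m ^ (L + 1) * v.natAbs := by
      rw [Int.natAbs_mul, Int.natAbs_pow, Int.natAbs_natCast]
    rw [hnat, mul_pow] at hu3
    have hkexp : m ^ (k * (L + 2)) = (m ^ (L + 1)) ^ k * m ^ k := by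
      rw [← pow_mul, ← pow_add]
      congr 1
      ring
    have hv : v.natAbs ≤ K := by
      by_contra hcon
      push Not at hcon
      have h4 : K ^ k < v.natAbs ^ k := Nat.pow_lt_pow_left hcon (by omega)
      have h5 : C * m ^ k ≤ K ^ k := by
        rw [hK, mul_pow]
        exact Nat.mul_le_mul_right _ (by
          calc C = C ^ 1 := (pow_one C).symm
            _ ≤ C ^ k := Nat.pow_le_pow_right hC1 hk)
      have hA : 0 < (m ^ (L + 1)) ^ k := by positivity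
      have h6 : (m ^ (L + 1)) ^ k * (C * m ^ k) < (m ^ (L + 1)) ^ k * v.natAbs ^ k :=
        Nat.mul_lt_mul_of_pos_left (lt_of_le_of_lt h5 h4) hA
      have h7 : C * N < C * m ^ (k * (L + 2)) := Nat.mul_lt_mul_of_pos_left hNlt (by omega)
      rw [hkexp] at h7
      have h8 : C * ((m ^ (L + 1)) ^ k * m ^ k) = (m ^ (L + 1)) ^ k * (C * m ^ k) := by ring
      rw [h8] at h7
      omega
    have hmem : x - y ∈ Dt := by
      rw [hDt, Finset.mem_image]
      refine ⟨v, ?_, ?_⟩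
      · rw [Finset.mem_Icc]
        constructor <;> omega
      · simp only [F]
        rw [← hxv]
        omega
    exact h1 y hy x hx hxy hmem
  intro x hx y hy u hu
  by_contra hne
  rcases Nat.lt_or_gt_of_ne hne with hlt | hgt
  · exact key x hx y hy u hu hlt
  · exact key2 x hx y hy u hu hgt


/-- The real-exponent bookkeeping. -/
theorem exponent_bound (m : ℕ) (hm : 2 ≤ m) (k : ℕ) (hk : 1 ≤ k) (r : ℕ) (hr : 1 ≤ r)
    (L N : ℕ) (h1 : m ^ (k * (L + 1)) ≤ N) (h2 : N < m ^ (k * (L + 2))) :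
    (N : ℝ) ^ (1 - 1 / (k : ℝ) + Real.log r / ((k : ℝ) * Real.log m)) * (m : ℝ) ^ L
      ≤ (N : ℝ) * (r : ℝ) ^ (L + 2) := by
  have hm1 : (1 : ℝ) < m := by exact_mod_cast (by omega : 1 < m)
  have hm0 : (0 : ℝ) < m := by linarith
  have hw : 0 < Real.log m := Real.log_pos hm1
  have hk0 : (0 : ℝ) < k := by exact_mod_cast (by omega : 0 < k)
  have hr0 : (0 : ℝ) < r := by exact_mod_cast (by omega : 0 < r)
  have hlogr : 0 ≤ Real.log r := Real.log_nonneg (by exact_mod_cast hr)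
  have hN1 : 1 ≤ N := (Nat.one_le_pow _ _ (by omega)).trans h1
  have hN0 : (0 : ℝ) < N := by exact_mod_cast (by omega : 0 < N)
  set w := Real.log m with hwdef
  set ℓ := Real.log N with hℓ
  -- logarithmic forms of the two size bounds
  have hl1 : (k : ℝ) * (L + 1) * w ≤ ℓ := by
    have h3 : ((m : ℝ)) ^ (k * (L + 1)) ≤ N := by exact_mod_cast h1
    have h4 := Real.log_le_log (by positivity) h3
    rw [Real.log_pow] at h4
    push_cast at h4
    exact h4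
  have hl2 : ℓ < (k : ℝ) * (L + 2) * w := by
    have h3 : (N : ℝ) < (m : ℝ) ^ (k * (L + 2)) := by exact_mod_cast h2
    have h4 := Real.log_lt_log hN0 h3
    rw [Real.log_pow] at h4
    push_cast at h4
    exact h4
  have hLR : (0 : ℝ) ≤ L := Nat.cast_nonneg L
  have hkw : 0 < (k : ℝ) * w := mul_pos hk0 hw
  -- rewrite everything as exponentials
  have e1 : (N : ℝ) ^ (1 - 1 / (k : ℝ) + Real.log r / ((k : ℝ) * w))
      = Real.exp (ℓ * (1 - 1 / (k : ℝ) + Real.log r / ((k : ℝ) * w))) :=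
    Real.rpow_def_of_pos hN0 _
  have e2 : (m : ℝ) ^ L = Real.exp ((L : ℝ) * w) := by
    rw [Real.exp_nat_mul, hwdef, Real.exp_log hm0]
  have e3 : (N : ℝ) = Real.exp ℓ := (Real.exp_log hN0).symm
  have e4 : (r : ℝ) ^ (L + 2) = Real.exp (((L + 2 : ℕ) : ℝ) * Real.log r) := by
    rw [Real.exp_nat_mul, Real.exp_log hr0]
  rw [e1, e2, e4]
  conv_rhs => rw [e3]
  rw [← Real.exp_add, ← Real.exp_add]
  apply Real.exp_le_exp.mpr
  push_cast
  -- the exponent inequality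
  have h5 : (L : ℝ) * w ≤ ℓ * (1 / (k : ℝ)) := by
    have h6 : (k : ℝ) * ((L : ℝ) * w) ≤ ℓ := by nlinarith
    rw [mul_one_div, le_div_iff₀ hk0]
    linarith
  have h7 : ℓ * (Real.log r / ((k : ℝ) * w)) ≤ ((L : ℝ) + 2) * Real.log r := by
    have h8 : ℓ / ((k : ℝ) * w) ≤ (L : ℝ) + 2 := by
      rw [div_le_iff₀ hkw]
      linarith
    calc ℓ * (Real.log r / ((k : ℝ) * w)) = (ℓ / ((k : ℝ) * w)) * Real.log r := by ring
      _ ≤ ((L : ℝ) + 2) * Real.log r := mul_le_mul_of_nonneg_right h8 hlogr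
  have h9 : ℓ * (1 - 1 / (k : ℝ) + Real.log r / ((k : ℝ) * w))
      = ℓ - ℓ * (1 / (k : ℝ)) + ℓ * (Real.log r / ((k : ℝ) * w)) := by ring
  rw [h9]
  linarith

/-- The main lower bound for `u ^ μ * g (u)`. -/
theorem core (μ : ℕ) (hμ : 1 ≤ μ) (g : Polynomial ℤ) (m : ℕ) (hm : 2 ≤ m) (hsq : Squarefree m)
    (hroot : ∀ p : ℕ, p.Prime → p ∣ m → ∀ n : ℤ, ¬ ((p : ℤ) ∣ g.eval n))
    (R : Finset ℕ) (hRm : ∀ r ∈ R, r < m) (hRne : R.Nonempty)
    (hR : ∀ r ∈ R, ∀ s ∈ R, r ≠ s → ∀ u : ℤ, ¬ ((m : ℤ) ∣ (r : ℤ) - s - g.eval 0 * u ^ μ)) :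
    ∃ c : ℝ, 0 < c ∧ ∀ N : ℕ, 1 ≤ N → ∃ A : Finset ℕ, A ⊆ Finset.Icc 1 N ∧
      (∀ a ∈ A, ∀ b ∈ A, ∀ u : ℤ, (a : ℤ) - b = u ^ μ * g.eval u → a = b) ∧
      c * (N : ℝ) ^ (1 - 1 / ((μ + g.natDegree : ℕ) : ℝ)
        + Real.log R.card / (((μ + g.natDegree : ℕ) : ℝ) * Real.log m)) ≤ A.card := by
  set k := μ + g.natDegree with hkdef
  have hk : 1 ≤ k := by omega
  have hg0 : g ≠ 0 := by
    rintro rfl
    obtain ⟨p, hp, hpm⟩ := Nat.exists_prime_and_dvd (by omega : m ≠ 1)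
    exact hroot p hp hpm 0 (by simp)
  set P : Polynomial ℤ := X ^ μ * g with hP
  have hP0 : P ≠ 0 := mul_ne_zero (pow_ne_zero _ X_ne_zero) hg0
  have hPdeg : P.natDegree = k := by
    rw [hP, (monic_X_pow μ).natDegree_mul' hg0, natDegree_X_pow]
  obtain ⟨C, hC1, hC⟩ := growth P hP0
  rw [hPdeg] at hC
  have hgrow : ∀ u : ℤ, u.natAbs ^ k ≤ C * ((u ^ μ * g.eval u).natAbs + 1) := by
    intro u
    have := hC u
    simpa [hP] using this
  set K := C * m with hK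
  have hm0 : 0 < m := by omega
  have hrc : 1 ≤ R.card := Finset.card_pos.mpr hRne
  have hrcm : R.card ≤ m := by
    have : R ⊆ Finset.range m := fun r hr => Finset.mem_range.mpr (hRm r hr)
    simpa using Finset.card_le_card this
  set r := R.card with hr
  have hrR : (1 : ℝ) ≤ r := by exact_mod_cast hrc
  have hmR : (1 : ℝ) ≤ m := by exact_mod_cast (by omega : 1 ≤ m)
  set D : ℝ := (r : ℝ) ^ 2 * (m : ℝ) ^ μ * (4 * (K : ℝ) + 4) * (m : ℝ) ^ k with hD
  have hD0 : 0 < D := by positivity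
  refine ⟨1 / D, by positivity, ?_⟩
  intro N hN
  by_cases hNk : N < m ^ k
  · -- small `N`
    refine ⟨{1}, by simpa using hN, by simp, ?_⟩
    rw [Finset.card_singleton, Nat.cast_one, div_mul_eq_mul_div, one_mul, div_le_one hD0]
    have hNR : (1 : ℝ) ≤ N := by exact_mod_cast hN
    have hkR : (0 : ℝ) < k := by exact_mod_cast (by omega : 0 < k)
    have hwpos : 0 < Real.log m := Real.log_pos (by exact_mod_cast (by omega : 1 < m))
    have hexp : 1 - 1 / (k : ℝ) + Real.log r / ((k : ℝ) * Real.log m) ≤ 1 := by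
      have h1 : Real.log r ≤ Real.log m :=
        Real.log_le_log (by linarith) (by exact_mod_cast hrcm)
      have h2 : Real.log r / ((k : ℝ) * Real.log m) ≤ 1 / (k : ℝ) := by
        rw [div_le_div_iff₀ (by positivity) hkR]
        nlinarith
      linarith
    calc (N : ℝ) ^ (1 - 1 / (k : ℝ) + Real.log r / ((k : ℝ) * Real.log m))
        ≤ (N : ℝ) ^ (1 : ℝ) := Real.rpow_le_rpow_of_exponent_le hNR hexp
      _ = N := Real.rpow_one _
      _ ≤ (m : ℝ) ^ k := by exact_mod_cast hNk.le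
      _ ≤ D := by
        rw [hD]
        have h3 : (1 : ℝ) ≤ (r : ℝ) ^ 2 * (m : ℝ) ^ μ * (4 * (K : ℝ) + 4) := by
          have h4 : (1 : ℝ) ≤ (r : ℝ) ^ 2 := one_le_pow₀ hrR
          have h5 : (1 : ℝ) ≤ (m : ℝ) ^ μ := one_le_pow₀ hmR
          have h6 : (1 : ℝ) ≤ 4 * (K : ℝ) + 4 := by
            have : (0 : ℝ) ≤ K := Nat.cast_nonneg K
            linarith
          have h7 : (1 : ℝ) ≤ (r : ℝ) ^ 2 * (m : ℝ) ^ μ := one_le_mul_of_one_le_of_one_le h4 h5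
          exact one_le_mul_of_one_le_of_one_le h7 h6
        have h8 : (0 : ℝ) ≤ (m : ℝ) ^ k := by positivity
        nlinarith
  · -- large `N`
    push Not at hNk
    have hmk : 1 < m ^ k := Nat.one_lt_pow (by omega) (by omega)
    set E := Nat.log (m ^ k) N with hE
    have hE1 : 1 ≤ E := Nat.log_pos hmk hNk
    obtain ⟨L, hL⟩ : ∃ L, E = L + 1 := ⟨E - 1, by omega⟩
    have hlow : (m ^ k) ^ E ≤ N := Nat.pow_log_le_self _ (by omega)
    have hhigh : N < (m ^ k) ^ (E + 1) := Nat.lt_pow_succ_log_self hmk N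
    rw [hL, ← pow_mul] at hlow
    rw [hL, ← pow_mul] at hhigh
    have hM : m ^ (μ * (L + 1)) ≤ N := by
      refine le_trans (Nat.pow_le_pow_right hm0 ?_) hlow
      exact Nat.mul_le_mul_right _ (by omega)
    set M := m ^ (μ * (L + 1)) with hMdef
    have hMpos : 0 < M := by positivity
    set T := N / M with hT
    have hT1 : 1 ≤ T := Nat.div_pos hM hMpos
    have hTN : M * T ≤ N := Nat.mul_div_le N M
    have hNT : N < M * (T + 1) := Nat.lt_mul_div_succ N hMpos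
    obtain ⟨B, hBT, hBcard, hB⟩ := exists_high m μ g hμ hm hroot C hC1 k hk hgrow L T N hTN hhigh
    obtain ⟨A, hAcard, hAmem, hAdiff⟩ := construct m μ g hμ hm hsq hroot R hRm hR L T B hBT hB
    refine ⟨A, ?_, hAdiff, ?_⟩
    · intro a ha
      obtain ⟨h1, h2⟩ := hAmem a ha
      exact Finset.mem_Icc.mpr ⟨h1, h2.trans hTN⟩
    -- the natural number inequality
    have hnat : r ^ L * N ≤ A.card * (2 * (2 * K + 2)) * m ^ L * m ^ μ := by
      have hid : (m ^ (μ - 1)) ^ L * m ^ L * m ^ μ = M := by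
        obtain ⟨μ', rfl⟩ : ∃ μ', μ = μ' + 1 := ⟨μ - 1, by omega⟩
        rw [hMdef]
        simp only [Nat.add_sub_cancel]
        ring
      have h1 : N ≤ 2 * (M * T) := by nlinarith
      have h2 : (r * m ^ (μ - 1)) ^ L * T ≤ A.card * (2 * K + 2) := by
        rw [hAcard, mul_assoc]
        exact Nat.mul_le_mul_left _ hBcard
      calc r ^ L * N ≤ r ^ L * (2 * (M * T)) := Nat.mul_le_mul_left _ h1
        _ = ((r * m ^ (μ - 1)) ^ L * T) * 2 * m ^ L * m ^ μ := by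
            rw [← hid, mul_pow]
            ring
        _ ≤ (A.card * (2 * K + 2)) * 2 * m ^ L * m ^ μ := by
            gcongr
        _ = A.card * (2 * (2 * K + 2)) * m ^ L * m ^ μ := by ring
    have hnatR : (r : ℝ) ^ L * (N : ℝ)
        ≤ (A.card : ℝ) * (4 * (K : ℝ) + 4) * (m : ℝ) ^ L * (m : ℝ) ^ μ := by
      have : ((r ^ L * N : ℕ) : ℝ) ≤ ((A.card * (2 * (2 * K + 2)) * m ^ L * m ^ μ : ℕ) : ℝ) := by
        exact_mod_cast hnat
      push_cast at this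
      calc (r : ℝ) ^ L * (N : ℝ) ≤ _ := this
        _ = _ := by ring
    have hexpo := exponent_bound m hm k hk r hrc L N hlow hhigh
    set γ := 1 - 1 / (k : ℝ) + Real.log r / ((k : ℝ) * Real.log m) with hγ
    have hmL : (0 : ℝ) < (m : ℝ) ^ L := by positivity
    have hfinal : (N : ℝ) ^ γ ≤ (A.card : ℝ) * (4 * (K : ℝ) + 4) * (m : ℝ) ^ μ * (r : ℝ) ^ 2 := by
      have h1 : (N : ℝ) ^ γ * (m : ℝ) ^ L ≤
          ((A.card : ℝ) * (4 * (K : ℝ) + 4) * (m : ℝ) ^ μ * (r : ℝ) ^ 2) * (m : ℝ) ^ L := by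
        calc (N : ℝ) ^ γ * (m : ℝ) ^ L ≤ (N : ℝ) * (r : ℝ) ^ (L + 2) := hexpo
          _ = ((r : ℝ) ^ L * (N : ℝ)) * (r : ℝ) ^ 2 := by ring
          _ ≤ ((A.card : ℝ) * (4 * (K : ℝ) + 4) * (m : ℝ) ^ L * (m : ℝ) ^ μ) * (r : ℝ) ^ 2 := by
              gcongr
          _ = _ := by ring
      exact le_of_mul_le_mul_right h1 hmL
    rw [div_mul_eq_mul_div, one_mul, div_le_iff₀ hD0]
    calc (N : ℝ) ^ γ ≤ (A.card : ℝ) * (4 * (K : ℝ) + 4) * (m : ℝ) ^ μ * (r : ℝ) ^ 2 := hfinal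
      _ ≤ (A.card : ℝ) * (4 * (K : ℝ) + 4) * (m : ℝ) ^ μ * (r : ℝ) ^ 2 * (m : ℝ) ^ k := by
        have h9 : (1 : ℝ) ≤ (m : ℝ) ^ k := one_le_pow₀ hmR
        have h10 : (0 : ℝ) ≤ (A.card : ℝ) * (4 * (K : ℝ) + 4) * (m : ℝ) ^ μ * (r : ℝ) ^ 2 := by
          positivity
        exact le_mul_of_one_le_right h10 h9
      _ = (A.card : ℝ) * D := by
        rw [hD]
        ring

end Vale.Agent.Lib.P042

namespace Vale.Agent.Lib.P042

open Polynomial

/-- The main theorem, for a polynomial with a multiple integer root `t`. -/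
theorem shifted (t : ℤ) (μ : ℕ) (hμ : 1 ≤ μ) (g : Polynomial ℤ) (m : ℕ) (hm : 2 ≤ m)
    (hsq : Squarefree m)
    (hroot : ∀ p : ℕ, p.Prime → p ∣ m → ∀ n : ℤ, ¬ ((p : ℤ) ∣ g.eval n))
    (R : Finset ℕ) (hRm : ∀ r ∈ R, r < m) (hRne : R.Nonempty)
    (hR : ∀ r ∈ R, ∀ s ∈ R, r ≠ s → ∀ u : ℤ, ¬ ((m : ℤ) ∣ (r : ℤ) - s - g.eval t * u ^ μ)) :
    ∃ c : ℝ, 0 < c ∧ ∀ N : ℕ, 1 ≤ N → ∃ A : Finset ℕ, A ⊆ Finset.Icc 1 N ∧
      (∀ a ∈ A, ∀ b ∈ A, ∀ n : ℤ, (a : ℤ) - b = ((X - C t) ^ μ * g).eval n → a = b) ∧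
      c * (N : ℝ) ^ (1 - 1 / ((((X - C t) ^ μ * g).natDegree : ℕ) : ℝ)
        + Real.log R.card / ((((X - C t) ^ μ * g).natDegree : ℝ) * Real.log m)) ≤ A.card := by
  have hg0 : g ≠ 0 := by
    rintro rfl
    obtain ⟨p, hp, hpm⟩ := Nat.exists_prime_and_dvd (by omega : m ≠ 1)
    exact hroot p hp hpm 0 (by simp)
  set G : Polynomial ℤ := g.comp (X + C t) with hG
  have hGeval : ∀ u : ℤ, G.eval u = g.eval (u + t) := by
    intro u
    simp [hG, Polynomial.eval_comp]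
  have hGdeg : G.natDegree = g.natDegree := by
    rw [hG, Polynomial.natDegree_comp, natDegree_X_add_C, mul_one]
  have hdeg : ((X - C t) ^ μ * g).natDegree = μ + G.natDegree := by
    rw [((monic_X_sub_C t).pow μ).natDegree_mul' hg0, (monic_X_sub_C t).natDegree_pow,
      natDegree_X_sub_C, mul_one, hGdeg]
  have hroot' : ∀ p : ℕ, p.Prime → p ∣ m → ∀ n : ℤ, ¬ ((p : ℤ) ∣ G.eval n) := by
    intro p hp hpm n
    rw [hGeval]
    exact hroot p hp hpm _
  have hR' : ∀ r ∈ R, ∀ s ∈ R, r ≠ s → ∀ u : ℤ,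
      ¬ ((m : ℤ) ∣ (r : ℤ) - s - G.eval 0 * u ^ μ) := by
    intro r hr s hs hrs u
    rw [hGeval, zero_add]
    exact hR r hr s hs hrs u
  obtain ⟨c, hc, h⟩ := core μ hμ G m hm hsq hroot' R hRm hRne hR'
  refine ⟨c, hc, ?_⟩
  intro N hN
  obtain ⟨A, hA, hdiff, hcard⟩ := h N hN
  refine ⟨A, hA, ?_, ?_⟩
  · intro a ha b hb n hn
    apply hdiff a ha b hb (n - t)
    rw [hn, hGeval]
    simp
  · rw [hdeg]
    exact hcard

end Vale.Agent.Lib.P042
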