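import Mathlib

namespace Vale.Agent.Lib.P042

open Finset

/-- Numbers with `len` digits in base `m`, where the digit at position `i + j` lies in `S (i + j)`.-/
def digitSet (m : ℕ) (S : ℕ → Finset ℕ) : ℕ → ℕ → Finset ℕ
  | _, 0 => {0}
  | i, len + 1 => ((S i) ×ˢ digitSet m S (i + 1) len).image (fun p => p.1 + m * p.2)

theorem digitSet_lt (m : ℕ) (S : ℕ → Finset ℕ) (hS : ∀ i, ∀ r ∈ S i, r < m) (len : ℕ) :
    ∀ i, ∀ a ∈ digitSet m S i len, a < m ^ len := by
  induction len with
  | zero => intro i a ha; simp [digitSet] at ha; simp [ha]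
  | succ len ih =>
    intro i a ha
    simp only [digitSet, Finset.mem_image, Finset.mem_product] at ha
    obtain ⟨⟨r, b⟩, ⟨hr, hb⟩, rfl⟩ := ha
    simp only at *
    have h1 := hS i r hr
    have h2 := ih (i + 1) b hb
    calc r + m * b < m + m * b := by omega
      _ = m * (b + 1) := by ring
      _ ≤ m * m ^ len := Nat.mul_le_mul_left _ h2
      _ = m ^ (len + 1) := by ring

theorem digitSet_card (m : ℕ) (hm : 0 < m) (S : ℕ → Finset ℕ) (hS : ∀ i, ∀ r ∈ S i, r < m)
    (len : ℕ) : ∀ i, (digitSet m S i len).card = ∏ j ∈ Finset.range len, (S (i + j)).card := by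
  induction len with
  | zero => intro i; simp [digitSet]
  | succ len ih =>
    intro i
    simp only [digitSet]
    rw [Finset.card_image_of_injOn, Finset.card_product, ih (i + 1), Finset.prod_range_succ']
    · rw [mul_comm]
      congr 1
      apply Finset.prod_congr rfl
      intro j _
      congr 2
      omega
    · rintro ⟨r, b⟩ h1 ⟨r', b'⟩ h2 heq
      simp only [Finset.coe_product, Set.mem_prod, Finset.mem_coe] at h1 h2
      simp only at heq
      have hr := hS i r h1.1
      have hr' := hS i r' h2.1
      have hmod : r = r' := by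
        have h3 := congrArg (· % m) heq
        simp only [Nat.add_mul_mod_self_left] at h3
        rwa [Nat.mod_eq_of_lt hr, Nat.mod_eq_of_lt hr'] at h3
      subst hmod
      have h6 : b = b' := by
        have : m * b = m * b' := by omega
        exact Nat.eq_of_mul_eq_mul_left hm this
      subst h6
      rfl

/-- Two distinct digit strings differ by `m^j * (r - s + m * y)` at their lowest differing digit. -/
theorem digit_diff (m : ℕ) (S : ℕ → Finset ℕ) (len : ℕ) :
    ∀ i, ∀ a ∈ digitSet m S i len, ∀ b ∈ digitSet m S i len, a ≠ b →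
      ∃ j, j < len ∧ ∃ r ∈ S (i + j), ∃ s ∈ S (i + j), r ≠ s ∧ ∃ y : ℤ,
        (a : ℤ) - b = (m : ℤ) ^ j * ((r : ℤ) - s + m * y) := by
  induction len with
  | zero =>
    intro i a ha b hb hab
    simp [digitSet] at ha hb
    omega
  | succ len ih =>
    intro i a ha b hb hab
    simp only [digitSet, Finset.mem_image, Finset.mem_product] at ha hb
    obtain ⟨⟨r, a'⟩, ⟨hr, ha'⟩, rfl⟩ := ha
    obtain ⟨⟨s, b'⟩, ⟨hs, hb'⟩, rfl⟩ := hb
    simp only at *
    by_cases hrs : r = s
    · subst hrs
      have hne : a' ≠ b' := by
        intro h; apply hab; rw [h]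
      obtain ⟨j, hj, r1, hr1, s1, hs1, hne1, y, hy⟩ := ih (i + 1) a' ha' b' hb' hne
      refine ⟨j + 1, by omega, r1, ?_, s1, ?_, hne1, y, ?_⟩
      · rwa [show i + (j + 1) = i + 1 + j by omega]
      · rwa [show i + (j + 1) = i + 1 + j by omega]
      · push_cast
        have : (r : ℤ) + m * a' - (r + m * b') = m * ((a' : ℤ) - b') := by ring
        rw [this, hy]
        ring
    · refine ⟨0, by omega, r, by simpa using hr, s, by simpa using hs, hrs, (a' : ℤ) - b', ?_⟩
      push_cast
      ring

/-- The product of digit-set sizes when every `μ`-th digit has `A` choices and the others `B`. -/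
theorem prod_block (μ : ℕ) (hμ : 1 ≤ μ) (A B : ℕ) (L : ℕ) :
    ∏ j ∈ Finset.range (μ * L), (if μ ∣ j then A else B) = (A * B ^ (μ - 1)) ^ L := by
  induction L with
  | zero => simp
  | succ L ih =>
    rw [Nat.mul_succ, Finset.prod_range_add, ih, pow_succ]
    congr 1
    obtain ⟨μ', rfl⟩ : ∃ μ', μ = μ' + 1 := ⟨μ - 1, by omega⟩
    rw [Finset.prod_range_succ']
    simp only [Nat.add_sub_cancel]
    have h0 : (μ' + 1) ∣ ((μ' + 1) * L + 0) := by simp
    rw [if_pos h0, mul_comm]
    congr 1
    rw [Finset.prod_congr rfl (g := fun _ => B)]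
    · simp
    · intro x hx
      rw [Finset.mem_range] at hx
      rw [if_neg]
      intro hdvd
      have h1 : (μ' + 1) ∣ (x + 1) := by
        have := (Nat.dvd_add_right (Dvd.intro L rfl : (μ' + 1) ∣ (μ' + 1) * L)).mp hdvd
        exact this
      have := Nat.le_of_dvd (by omega) h1
      omega

/-- Greedy selection: a subset of `range T` with no difference in `D`, of size at least
`T / (|D| + 1)`. -/
theorem greedy (D : Finset ℕ) (T : ℕ) :
    ∃ B ⊆ Finset.range T, (∀ x ∈ B, ∀ y ∈ B, x < y → y - x ∉ D) ∧ T ≤ B.card * (D.card + 1) := by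
  -- strengthened invariant
  have key : ∀ T : ℕ, ∃ B ⊆ Finset.range T, (∀ x ∈ B, ∀ y ∈ B, x < y → y - x ∉ D) ∧
      (∀ t < T, t ∈ B ∨ ∃ x ∈ B, t - x ∈ D ∧ x < t) := by
    intro T
    induction T with
    | zero => exact ⟨∅, by simp, by simp, by simp⟩
    | succ T ih =>
      obtain ⟨B, hB, h1, h2⟩ := ih
      by_cases hT : ∃ x ∈ B, T - x ∈ D ∧ x < T
      · refine ⟨B, hB.trans (Finset.range_subset_range.mpr (by omega)), h1, ?_⟩
        intro t ht
        by_cases htT : t < T
        · exact h2 t htT
        · have : t = T := by omega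
          subst this
          exact Or.inr hT
      · have hTB : T ∉ B := by
          intro h
          have := hB h
          simp at this
        refine ⟨insert T B, ?_, ?_, ?_⟩
        · intro x hx
          rcases Finset.mem_insert.mp hx with rfl | hx
          · simp
          · have := hB hx
            simp at this ⊢
            omega
        · intro x hx y hy hxy
          rcases Finset.mem_insert.mp hx with rfl | hx'
          · rcases Finset.mem_insert.mp hy with rfl | hy'
            · omega
            · have := hB hy'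
              simp at this
              omega
          · rcases Finset.mem_insert.mp hy with rfl | hy'
            · intro hd
              exact hT ⟨x, hx', hd, hxy⟩
            · exact h1 x hx' y hy' hxy
        · intro t ht
          by_cases htT : t < T
          · rcases h2 t htT with h | ⟨x, hx, hd, hxt⟩
            · exact Or.inl (Finset.mem_insert_of_mem h)
            · exact Or.inr ⟨x, Finset.mem_insert_of_mem hx, hd, hxt⟩
          · have : t = T := by omega
            subst this
            exact Or.inl (Finset.mem_insert_self _ _)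
  obtain ⟨B, hB, h1, h2⟩ := key T
  refine ⟨B, hB, h1, ?_⟩
  -- range T ⊆ image of B × (insert 0 D) under addition
  have hsub : Finset.range T ⊆ (B ×ˢ (insert 0 D)).image (fun p => p.1 + p.2) := by
    intro t ht
    rw [Finset.mem_range] at ht
    rw [Finset.mem_image]
    rcases h2 t ht with h | ⟨x, hx, hd, hxt⟩
    · exact ⟨(t, 0), by simp [h], by simp⟩
    · refine ⟨(x, t - x), ?_, by simp; omega⟩
      simp only [Finset.mem_product, Finset.mem_insert]
      exact ⟨hx, Or.inr hd⟩
  have hcard := Finset.card_le_card hsub
  rw [Finset.card_range] at hcard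
  refine hcard.trans (Finset.card_image_le.trans ?_)
  rw [Finset.card_product]
  exact Nat.mul_le_mul_left _ (Finset.card_insert_le _ _)

end Vale.Agent.Lib.P042
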