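import Vale.Agent.Lib.P042.Core

namespace Vale.Agent.Lib.P042

open Polynomial

/-- If `gcd(μ, p-1) > 1` there is a nonzero residue modulo `p` that is not a `μ`-th power. -/
theorem exists_nonpower (μ : ℕ) (hμ : 1 ≤ μ) (p : ℕ) (hp : p.Prime) (hgcd : ¬ Nat.Coprime μ (p - 1)) :
    ∃ ν : ZMod p, ν ≠ 0 ∧ ∀ u : ZMod p, u ^ μ ≠ ν := by
  have : Fact p.Prime := ⟨hp⟩
  obtain ⟨ℓ, hℓ, hℓμ, hℓp⟩ := Nat.Prime.not_coprime_iff_dvd.mp hgcd
  have : Fact ℓ.Prime := ⟨hℓ⟩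
  have hcard : ℓ ∣ Nat.card (ZMod p)ˣ := by
    rw [Nat.card_eq_fintype_card, ZMod.card_units p]
    exact hℓp
  obtain ⟨ζ, hζ⟩ := exists_prime_orderOf_dvd_card' ℓ hcard
  have hζ1 : ζ ≠ 1 := by
    rintro rfl
    rw [orderOf_one] at hζ
    exact hℓ.one_lt.ne hζ
  have hζμ : ζ ^ μ = 1 := by
    rw [← orderOf_dvd_iff_pow_eq_one, hζ]
    exact hℓμ
  let f : (ZMod p)ˣ → (ZMod p)ˣ := fun u => u ^ μ
  have hninj : ¬ Function.Injective f := by
    intro hinj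
    apply hζ1
    apply hinj
    simp [f, hζμ]
  have hnsurj : ¬ Function.Surjective f := by
    intro hs
    exact hninj (Finite.injective_iff_surjective.mpr hs)
  simp only [Function.Surjective, not_forall, not_exists] at hnsurj
  obtain ⟨ν, hν⟩ := hnsurj
  refine ⟨ν, ν.ne_zero, ?_⟩
  intro u hu
  have hu0 : u ≠ 0 := by
    rintro rfl
    rw [zero_pow (by omega)] at hu
    exact ν.ne_zero hu.symm
  apply hν (Units.mk0 u hu0)
  ext
  simp [f, hu]

/-- Two primes with no root of `g` give a two element digit set. -/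
theorem two_primes (t : ℤ) (μ : ℕ) (hμ : 1 ≤ μ) (g : Polynomial ℤ) (p q : ℕ) (hp : p.Prime)
    (hq : q.Prime) (hpq : p ≠ q) (hgp : ¬ Nat.Coprime μ (p - 1)) (hgq : ¬ Nat.Coprime μ (q - 1))
    (hrp : ∀ n : ℤ, ¬ ((p : ℤ) ∣ g.eval n)) (hrq : ∀ n : ℤ, ¬ ((q : ℤ) ∣ g.eval n)) :
    ∃ c : ℝ, 0 < c ∧ ∀ N : ℕ, 1 ≤ N → ∃ A : Finset ℕ, A ⊆ Finset.Icc 1 N ∧
      (∀ a ∈ A, ∀ b ∈ A, ∀ n : ℤ, (a : ℤ) - b = ((X - C t) ^ μ * g).eval n → a = b) ∧
      c * (N : ℝ) ^ (1 - 1 / ((((X - C t) ^ μ * g).natDegree : ℕ) : ℝ)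
        + Real.log 2 / ((((X - C t) ^ μ * g).natDegree : ℝ) * Real.log ((p * q : ℕ) : ℝ)))
        ≤ A.card := by
  have : Fact p.Prime := ⟨hp⟩
  have : Fact q.Prime := ⟨hq⟩
  have hco : Nat.Coprime p q := (Nat.coprime_primes hp hq).mpr hpq
  obtain ⟨νp, hνp0, hνp⟩ := exists_nonpower μ hμ p hp hgp
  obtain ⟨νq, hνq0, hνq⟩ := exists_nonpower μ hμ q hq hgq
  have hcp : ((g.eval t : ℤ) : ZMod p) ≠ 0 := by
    intro h
    exact hrp t ((ZMod.intCast_zmod_eq_zero_iff_dvd _ _).mp h)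
  have hcq : ((g.eval t : ℤ) : ZMod q) ≠ 0 := by
    intro h
    exact hrq t ((ZMod.intCast_zmod_eq_zero_iff_dvd _ _).mp h)
  set a : ℕ := (((g.eval t : ℤ) : ZMod p) * νp).val with ha
  set b : ℕ := (-(((g.eval t : ℤ) : ZMod q) * νq)).val with hb
  set d : ℕ := (Nat.chineseRemainder hco a b : ℕ) with hd
  have hdp : d ≡ a [MOD p] := (Nat.chineseRemainder hco a b).2.1
  have hdq : d ≡ b [MOD q] := (Nat.chineseRemainder hco a b).2.2
  have hdlt : d < p * q := Nat.chineseRemainder_lt_mul hco a b hp.ne_zero hq.ne_zero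
  have hdzp : (d : ZMod p) = ((g.eval t : ℤ) : ZMod p) * νp := by
    rw [(ZMod.natCast_eq_natCast_iff d a p).mpr hdp, ha, ZMod.natCast_val, ZMod.cast_id', id]
  have hdzq : (d : ZMod q) = -(((g.eval t : ℤ) : ZMod q) * νq) := by
    rw [(ZMod.natCast_eq_natCast_iff d b q).mpr hdq, hb, ZMod.natCast_val, ZMod.cast_id', id]
  have hd0 : d ≠ 0 := by
    intro h0
    rw [h0] at hdzp
    simp only [Nat.cast_zero] at hdzp
    exact mul_ne_zero hcp hνp0 hdzp.symm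
  have hm : 2 ≤ p * q := by
    have := hp.two_le
    have := hq.two_le
    nlinarith
  have hsq : Squarefree (p * q) :=
    (Nat.squarefree_mul hco).mpr ⟨hp.prime.squarefree, hq.prime.squarefree⟩
  have hroot : ∀ r : ℕ, r.Prime → r ∣ p * q → ∀ n : ℤ, ¬ ((r : ℤ) ∣ g.eval n) := by
    intro r hr hrd n
    rcases (Nat.Prime.dvd_mul hr).mp hrd with h | h
    · rw [(Nat.prime_dvd_prime_iff_eq hr hp).mp h]
      exact hrp n
    · rw [(Nat.prime_dvd_prime_iff_eq hr hq).mp h]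
      exact hrq n
  have hRcard : ({0, d} : Finset ℕ).card = 2 := Finset.card_pair (Ne.symm hd0)
  have key1 : ∀ u : ℤ, ¬ (((p * q : ℕ) : ℤ) ∣ (d : ℤ) - 0 - g.eval t * u ^ μ) := by
    intro u hu
    have h1 : (p : ℤ) ∣ (d : ℤ) - 0 - g.eval t * u ^ μ :=
      Dvd.dvd.trans (by push_cast; exact Dvd.intro _ rfl) hu
    have h2 := (ZMod.intCast_zmod_eq_zero_iff_dvd _ p).mpr h1
    push_cast at h2
    rw [hdzp, sub_zero, ← mul_sub] at h2
    have h3 := (mul_eq_zero.mp h2).resolve_left hcp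
    exact hνp (u : ZMod p) (sub_eq_zero.mp h3).symm
  have key2 : ∀ u : ℤ, ¬ (((p * q : ℕ) : ℤ) ∣ ((0 : ℕ) : ℤ) - d - g.eval t * u ^ μ) := by
    intro u hu
    have h1 : (q : ℤ) ∣ ((0 : ℕ) : ℤ) - d - g.eval t * u ^ μ :=
      Dvd.dvd.trans (by push_cast; exact Dvd.intro_left _ rfl) hu
    have h2 := (ZMod.intCast_zmod_eq_zero_iff_dvd _ q).mpr h1
    push_cast at h2
    rw [hdzq, zero_sub, neg_neg, ← mul_sub] at h2
    have h3 := (mul_eq_zero.mp h2).resolve_left hcq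
    exact hνq (u : ZMod q) (sub_eq_zero.mp h3).symm
  have hRm : ∀ r ∈ ({0, d} : Finset ℕ), r < p * q := by
    intro r hr
    rcases Finset.mem_insert.mp hr with rfl | hr
    · omega
    · rw [Finset.mem_singleton.mp hr]
      exact hdlt
  have hR : ∀ r ∈ ({0, d} : Finset ℕ), ∀ s ∈ ({0, d} : Finset ℕ), r ≠ s → ∀ u : ℤ,
      ¬ (((p * q : ℕ) : ℤ) ∣ (r : ℤ) - s - g.eval t * u ^ μ) := by
    intro r hr s hs hrs u
    rcases Finset.mem_insert.mp hr with rfl | hr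
    · rcases Finset.mem_insert.mp hs with rfl | hs
      · exact absurd rfl hrs
      · rw [Finset.mem_singleton.mp hs]
        exact key2 u
    · rcases Finset.mem_insert.mp hs with rfl | hs
      · rw [Finset.mem_singleton.mp hr]
        exact key1 u
      · rw [Finset.mem_singleton.mp hr, Finset.mem_singleton.mp hs] at hrs
        exact absurd rfl hrs
  have := shifted t μ hμ g (p * q) hm hsq hroot {0, d} hRm (by simp) hR
  rw [hRcard] at this
  simpa using this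

end Vale.Agent.Lib.P042
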